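import Mathlib

/-!
# Row 41, module POLY, part 1 (helper6): refinement of intersective polynomials

`Inter pr g r d` : `g` has a root `n` modulo every `q`, with `r + d n` coprime to `q` if `pr`.
`lin s q = C s + C q * X`.
-/

set_option autoImplicit false

open Polynomial

namespace Crest.Agent.N41.Poly

/-- the linear polynomial `s + q X` -/
noncomputable def lin (s q : ℤ) : ℤ[X] := C s + C q * X

@[simp] lemma eval_lin (s q n : ℤ) : (lin s q).eval n = s + q * n := by simp [lin]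

lemma lin_comp_lin (r d s q : ℤ) : (lin r d).comp (lin s q) = lin (r + d * s) (d * q) := by
  simp only [lin, add_comp, mul_comp, C_comp, X_comp, C_add, C_mul]
  ring

/-- `g` has a root modulo every `q`; in the prime case `r + d n` is coprime to `q` -/
def Inter (pr : Prop) (g : ℤ[X]) (r d : ℤ) : Prop :=
  ∀ q : ℕ, 1 ≤ q → ∃ n : ℤ, (q : ℤ) ∣ g.eval n ∧ (pr → IsCoprime (r + d * n) (q : ℤ))

lemma comp_lin_eq (g : ℤ[X]) (s q : ℤ) :
    g.comp (lin s q) = (taylor s g).comp (C q * X) := by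
  rw [taylor_apply, comp_assoc]
  congr 1
  simp [lin, add_comm]

lemma coeff_comp_lin (g : ℤ[X]) (s q : ℤ) (i : ℕ) :
    (g.comp (lin s q)).coeff i = (taylor s g).coeff i * q ^ i := by
  rw [comp_lin_eq, comp_C_mul_X_coeff]

lemma eval_comp_lin (g : ℤ[X]) (s q n : ℤ) :
    (g.comp (lin s q)).eval n = g.eval (s + q * n) := by
  simp [eval_comp]

lemma natDegree_comp_lin (g : ℤ[X]) (s : ℤ) {q : ℤ} (hq : q ≠ 0) :
    (g.comp (lin s q)).natDegree = g.natDegree := by
  rw [natDegree_comp]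
  have : (lin s q).natDegree = 1 := by
    unfold lin
    rw [add_comm]
    exact natDegree_linear hq
  rw [this, mul_one]

lemma leadingCoeff_comp_lin (g : ℤ[X]) (s : ℤ) {q : ℤ} (hq : q ≠ 0) :
    (g.comp (lin s q)).leadingCoeff = g.leadingCoeff * q ^ g.natDegree := by
  rw [leadingCoeff, natDegree_comp_lin g s hq, coeff_comp_lin, ← natDegree_taylor g s,
    ← leadingCoeff, leadingCoeff_taylor, natDegree_taylor]

lemma isPrimitive_taylor {g : ℤ[X]} (hg : g.IsPrimitive) (s : ℤ) :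
    (taylor s g).IsPrimitive := by
  intro c hc
  apply hg
  obtain ⟨u, hu⟩ := hc
  refine ⟨taylor (-s) u, ?_⟩
  have : taylor (-s) (taylor s g) = g := by rw [taylor_taylor]; simp
  rw [← this, hu, taylor_mul, taylor_C]

/-- a common divisor of the coefficients of `g (s + q X)` divides `q ^ k` -/
lemma dvd_pow_of_C_dvd {g : ℤ[X]} (hg : g.IsPrimitive) {k : ℕ} (hk : g.natDegree ≤ k)
    (s q c : ℤ) (hc : C c ∣ g.comp (lin s q)) : c ∣ q ^ k := by
  have h1 : ∀ i, c ∣ (C (q ^ k) * taylor s g).coeff i := by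
    intro i
    rw [coeff_C_mul]
    by_cases hi : i ≤ k
    · have h2 := (C_dvd_iff_dvd_coeff c _).1 hc i
      rw [coeff_comp_lin] at h2
      obtain ⟨j, rfl⟩ := Nat.exists_eq_add_of_le hi
      rw [pow_add, mul_assoc, mul_comm (q ^ j), ← mul_assoc, mul_comm (q ^ i)]
      exact Dvd.dvd.mul_right h2 _
    · have : (taylor s g).coeff i = 0 := by
        apply coeff_eq_zero_of_natDegree_lt
        rw [natDegree_taylor]; omega
      rw [this, mul_zero]; exact dvd_zero _
  have h2 : C c ∣ C (q ^ k) * taylor s g := (C_dvd_iff_dvd_coeff c _).2 h1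
  have h3 := dvd_content_iff_C_dvd.2 h2
  rw [content_C_mul, (isPrimitive_taylor hg s).content_eq_one, mul_one] at h3
  exact h3.trans (normalize_associated _).dvd

/-- pigeonhole: one residue class modulo `q` carries roots modulo everything -/
lemma exists_class {pr : Prop} {g : ℤ[X]} {r d : ℤ} (hg : Inter pr g r d) {q : ℕ} (hq : 1 ≤ q) :
    ∃ s : ℕ, s < q ∧ ∀ Q : ℕ, 1 ≤ Q → ∃ t : ℤ, (Q : ℤ) ∣ g.eval (s + q * t) ∧
      (pr → IsCoprime (r + d * (s + q * t)) (Q : ℤ)) := by
  by_contra hcon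
  push Not at hcon
  choose! Q hQ1 hQ using hcon
  obtain ⟨n, hn1, hn2⟩ := hg (∏ s ∈ Finset.range q, Q s)
    (Finset.one_le_prod' fun s hs => hQ1 s (Finset.mem_range.1 hs))
  have hq0 : (0 : ℤ) < q := by exact_mod_cast hq
  have h0 : 0 ≤ n % q := Int.emod_nonneg _ hq0.ne'
  have h1 : n % q < q := Int.emod_lt_of_pos _ hq0
  have hs : (n % q).toNat < q := by omega
  have hn : (((n % q).toNat : ℕ) : ℤ) + q * (n / q) = n := by
    rw [Int.toNat_of_nonneg h0]; exact Int.emod_add_mul_ediv n q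
  have hdvd : ((Q (n % q).toNat : ℕ) : ℤ) ∣ ((∏ s ∈ Finset.range q, Q s : ℕ) : ℤ) :=
    Int.natCast_dvd_natCast.2 (Finset.dvd_prod_of_mem _ (Finset.mem_range.2 hs))
  obtain ⟨h2, h3⟩ := hQ _ hs (n / q) (by rw [hn]; exact hdvd.trans hn1)
  apply h3
  rw [hn]
  exact (hn2 h2).of_isCoprime_of_dvd_right hdvd

/-- **Refinement.** -/
theorem refine {pr : Prop} {g : ℤ[X]} {r d : ℤ} {k : ℕ} (hp : g.IsPrimitive)
    (hk : g.natDegree ≤ k) (hg : Inter pr g r d) {q : ℕ} (hq : 1 ≤ q) :
    ∃ (s lam : ℕ) (g' : ℤ[X]), s < q ∧ 0 < lam ∧ q ∣ lam ∧ lam ∣ q ^ k ∧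
      C (lam : ℤ) * g' = g.comp (lin s q) ∧ g'.IsPrimitive ∧
      Inter pr g' (r + d * s) (d * q) := by
  obtain ⟨s, hs, hcl⟩ := exists_class hg hq
  have hq0 : (q : ℤ) ≠ 0 := by exact_mod_cast (by omega : q ≠ 0)
  set G := g.comp (lin s q) with hG
  have hc1 : G.content ∣ (q : ℤ) ^ k := dvd_pow_of_C_dvd hp hk s q _ (C_content_dvd G)
  have hc0 : G.content ≠ 0 := by
    intro h
    rw [h, zero_dvd_iff] at hc1
    exact pow_ne_zero _ hq0 hc1
  have hnn : 0 ≤ G.content := by
    rw [← normalize_content]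
    exact Int.nonneg_of_normalize_eq_self (by simp)
  have hcast : ((G.content.natAbs : ℕ) : ℤ) = G.content := Int.natAbs_of_nonneg hnn
  have hfac : C G.content * G.primPart = G := (eq_C_content_mul_primPart G).symm
  refine ⟨s, G.content.natAbs, G.primPart, hs, Int.natAbs_pos.2 hc0, ?_, ?_, ?_,
    isPrimitive_primPart G, ?_⟩
  · rw [← Int.natCast_dvd_natCast, hcast, dvd_content_iff_C_dvd, C_dvd_iff_dvd_coeff]
    intro i
    rcases Nat.eq_zero_or_pos i with rfl | hi
    · obtain ⟨t, ht, -⟩ := hcl q hq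
      rw [coeff_zero_eq_eval_zero, hG, eval_comp_lin, mul_zero, add_zero]
      have h2 : (q : ℤ) ∣ g.eval (s + q * t) - g.eval (s : ℤ) :=
        (Dvd.intro t (by ring) : (q : ℤ) ∣ (s + q * t) - s).trans (sub_dvd_eval_sub _ _ _)
      have := dvd_sub ht h2
      simpa using this
    · rw [hG, coeff_comp_lin]
      exact Dvd.dvd.mul_left (dvd_pow_self _ hi.ne') _
  · rw [← Int.natCast_dvd_natCast, hcast]; exact_mod_cast hc1
  · rw [hcast, hfac]
  · intro Q hQ
    obtain ⟨t, ht1, ht2⟩ := hcl (Q * q ^ k) (Nat.one_le_iff_ne_zero.2 (by positivity))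
    refine ⟨t, ?_, fun h => ?_⟩
    · rw [← eval_comp_lin, ← hG, ← hfac, eval_mul, eval_C] at ht1
      obtain ⟨u, hu⟩ := hc1
      have h3 : G.content * (Q * u) ∣ G.content * G.primPart.eval t := by
        convert ht1 using 1
        push_cast
        rw [hu]; ring
      exact (Dvd.intro _ rfl).trans ((mul_dvd_mul_iff_left hc0).1 h3)
    · have h4 := ht2 h
      have h5 : r + d * (s : ℤ) + d * q * t = r + d * (s + q * t) := by ring
      rw [h5]
      push_cast at h4
      exact h4.of_mul_right_left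

/-- the first normalisation: divide `h` by its content -/
theorem init {pr : Prop} {h : ℤ[X]} (h0 : h ≠ 0) (hg : Inter pr h 0 1) :
    ∃ (lam : ℕ) (g : ℤ[X]), 0 < lam ∧ (lam : ℤ) ∣ h.leadingCoeff ∧ C (lam : ℤ) * g = h ∧
      g.IsPrimitive ∧ Inter pr g 0 1 := by
  have hc0 : h.content ≠ 0 := by rwa [Ne, content_eq_zero_iff]
  have hnn : 0 ≤ h.content := by
    rw [← normalize_content]
    exact Int.nonneg_of_normalize_eq_self (by simp)
  have hcast : ((h.content.natAbs : ℕ) : ℤ) = h.content := Int.natAbs_of_nonneg hnn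
  have hfac : C h.content * h.primPart = h := (eq_C_content_mul_primPart h).symm
  refine ⟨h.content.natAbs, h.primPart, Int.natAbs_pos.2 hc0, ?_, ?_, isPrimitive_primPart h, ?_⟩
  · rw [hcast]; exact content_dvd_coeff _
  · rw [hcast, hfac]
  · intro Q hQ
    obtain ⟨t, ht1, ht2⟩ := hg (Q * h.content.natAbs)
      (Nat.one_le_iff_ne_zero.2 (mul_ne_zero (by omega) (Int.natAbs_ne_zero.2 hc0)))
    refine ⟨t, ?_, fun hp => ?_⟩
    · have h1 : h.eval t = h.content * h.primPart.eval t := by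
        conv_lhs => rw [← hfac]
        rw [eval_mul, eval_C]
      rw [h1, Nat.cast_mul, hcast, mul_comm] at ht1
      exact (mul_dvd_mul_iff_left hc0).1 ht1
    · have := ht2 hp
      push_cast at this
      exact this.of_mul_right_left

/-- in the prime case the progression is reduced -/
lemma Inter.coprime {pr : Prop} {g : ℤ[X]} {r : ℤ} {d : ℕ} (hg : Inter pr g r d) (hd : 1 ≤ d)
    (hp : pr) : IsCoprime r (d : ℤ) := by
  obtain ⟨n, -, h⟩ := hg d hd
  exact (IsCoprime.add_mul_left_left_iff).1 (h hp)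

/-- primitive with a root modulo `p`: some non-constant coefficient is prime to `p` -/
lemma exists_coeff_not_dvd {g : ℤ[X]} (hp : g.IsPrimitive) {p : ℕ} (hpp : p.Prime)
    (hr : ∃ n : ℤ, (p : ℤ) ∣ g.eval n) :
    ∃ i, 1 ≤ i ∧ i ≤ g.natDegree ∧ ¬ (p : ℤ) ∣ g.coeff i := by
  by_contra hcon
  push Not at hcon
  obtain ⟨n, hn⟩ := hr
  have h1 : ∀ i, 1 ≤ i → (p : ℤ) ∣ g.coeff i := by
    intro i hi
    by_cases h : i ≤ g.natDegree
    · exact hcon i hi h
    · rw [coeff_eq_zero_of_natDegree_lt (by omega)]; exact dvd_zero _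
  have h2 : (p : ℤ) ∣ g.coeff 0 := by
    rw [eval_eq_sum_range, Finset.sum_range_succ'] at hn
    simp only [pow_zero, mul_one] at hn
    exact (dvd_add_right (Finset.dvd_sum fun i _ => Dvd.dvd.mul_right (h1 _ (by omega)) _)).1 hn
  have h3 : C (p : ℤ) ∣ g := by
    rw [C_dvd_iff_dvd_coeff]
    intro i
    rcases Nat.eq_zero_or_pos i with rfl | hi
    · exact h2
    · exact h1 i hi
  have h4 := hp _ h3
  rw [Int.isUnit_iff_natAbs_eq, Int.natAbs_natCast] at h4
  exact hpp.one_lt.ne' h4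

end Crest.Agent.N41.Poly
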