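import Crest.Agent.N41.Poly.Complete

/-!
# Row 41, module POLY, part 4 (helper6): the local kernels

Fourier analysis on `ZMod p`; the operator norm of a convolution kernel on functions of mean zero
is at most its largest nontrivial Fourier coefficient.
-/

set_option autoImplicit false

open Polynomial Finset
open scoped BigOperators

namespace Crest.Agent.N41.Poly

section Fourier

variable {p : ℕ} [NeZero p]

/-- unnormalised Fourier transform of a real function -/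
noncomputable def ft (f : ZMod p → ℝ) (ξ : ZMod p) : ℂ :=
  ∑ s, (f s : ℂ) * ZMod.stdAddChar (s * ξ)

lemma sum_char (z : ZMod p) :
    ∑ ξ : ZMod p, ZMod.stdAddChar (z * ξ) = if z = 0 then (p : ℂ) else 0 := by
  have := AddChar.sum_mulShift z (ZMod.isPrimitive_stdAddChar p)
  simp_rw [mul_comm z]
  rw [this]
  split_ifs <;> simp

lemma ft_neg (f : ZMod p → ℝ) (ξ : ZMod p) : ft f (-ξ) = (starRingEnd ℂ) (ft f ξ) := by
  unfold ft
  rw [map_sum]
  refine sum_congr rfl fun s _ => ?_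
  rw [map_mul (starRingEnd ℂ), Complex.conj_ofReal, ← AddChar.map_neg_eq_conj, mul_neg]

lemma sum_ft_mul (a b : ZMod p → ℝ) :
    ∑ ξ, ft a ξ * ft b (-ξ) = (p : ℂ) * ((∑ s, a s * b s : ℝ) : ℂ) := by
  have h1 : ∀ ξ, ft a ξ * ft b (-ξ) =
      ∑ s, ∑ t, (a s : ℂ) * b t * ZMod.stdAddChar ((s - t) * ξ) := by
    intro ξ
    unfold ft
    rw [sum_mul_sum]
    refine sum_congr rfl fun s _ => sum_congr rfl fun t _ => ?_
    rw [show (s - t) * ξ = s * ξ + t * -ξ by ring, AddChar.map_add_eq_mul]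
    ring
  simp_rw [h1]
  rw [sum_comm]
  push_cast
  rw [mul_sum]
  refine sum_congr rfl fun s _ => ?_
  rw [sum_comm]
  simp_rw [← mul_sum, sum_char, sub_eq_zero]
  simp [mul_comm]

/-- Parseval -/
lemma sum_norm_ft_sq (a : ZMod p → ℝ) : ∑ ξ, ‖ft a ξ‖ ^ 2 = p * ∑ s, a s ^ 2 := by
  have h := sum_ft_mul a a
  simp_rw [ft_neg, Complex.mul_conj, Complex.normSq_eq_norm_sq, ← pow_two] at h
  exact_mod_cast h

lemma ft_conv (u κ : ZMod p → ℝ) (ξ : ZMod p) :
    ft (fun t => ∑ s, u s * κ (t - s)) ξ = ft u ξ * ft κ ξ := by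
  unfold ft
  rw [sum_mul_sum]
  push_cast
  simp_rw [sum_mul]
  rw [sum_comm]
  refine sum_congr rfl fun s _ => ?_
  rw [← Equiv.sum_comp (Equiv.addLeft s)]
  refine sum_congr rfl fun z _ => ?_
  simp only [Equiv.coe_addLeft, add_sub_cancel_left, add_mul, AddChar.map_add_eq_mul]
  ring

/-- the operator norm on functions of mean zero is at most the largest Fourier coefficient -/
theorem opBd_of_ft (κ : ZMod p → ℝ) {ρ : ℝ}
    (h : ∀ ξ, ξ ≠ 0 → ‖ft κ ξ‖ ≤ ρ * p) : OpBd κ ρ := by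
  intro u v hu
  have hp0 : (0 : ℝ) < p := by exact_mod_cast Nat.pos_of_ne_zero (NeZero.ne p)
  have hu0 : ft u 0 = 0 := by
    unfold ft
    simp only [mul_zero, AddChar.map_zero_eq_one, mul_one]
    exact_mod_cast hu
  set T : ℝ := ∑ t, (∑ s, u s * κ (t - s)) * v t with hT
  have h1 := sum_ft_mul (fun t => ∑ s, u s * κ (t - s)) v
  simp_rw [ft_conv] at h1
  rw [← hT] at h1
  have h2 : p * |T| ≤ ρ * p * ∑ ξ, ‖ft u ξ‖ * ‖ft v ξ‖ := by
    have h3 : p * |T| = ‖(p : ℂ) * (T : ℂ)‖ := by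
      rw [norm_mul, Complex.norm_natCast, Complex.norm_real, Real.norm_eq_abs]
    rw [h3, ← h1, mul_sum]
    refine (norm_sum_le _ _).trans (sum_le_sum fun ξ _ => ?_)
    rw [norm_mul, norm_mul, ft_neg, Complex.norm_conj]
    by_cases hξ : ξ = 0
    · subst hξ; simp [hu0]
    · calc ‖ft u ξ‖ * ‖ft κ ξ‖ * ‖ft v ξ‖ ≤ ‖ft u ξ‖ * (ρ * p) * ‖ft v ξ‖ := by
            gcongr; exact h ξ hξ
        _ = _ := by ring
  have h3 : |T| ≤ ρ * ∑ ξ, ‖ft u ξ‖ * ‖ft v ξ‖ := by
    have : p * |T| ≤ p * (ρ * ∑ ξ, ‖ft u ξ‖ * ‖ft v ξ‖) := by linarith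
    exact le_of_mul_le_mul_left this hp0
  have h4 := sum_mul_sq_le_sq_mul_sq univ (fun ξ => ‖ft u ξ‖) (fun ξ => ‖ft v ξ‖)
  rw [sum_norm_ft_sq, sum_norm_ft_sq] at h4
  have h5 : T ^ 2 ≤ ρ ^ 2 * ((p * ∑ s, u s ^ 2) * (p * ∑ s, v s ^ 2)) := by
    calc T ^ 2 = |T| ^ 2 := (sq_abs T).symm
      _ ≤ (ρ * ∑ ξ, ‖ft u ξ‖ * ‖ft v ξ‖) ^ 2 := by gcongr
      _ ≤ _ := by rw [mul_pow]; gcongr
  have h6 : (𝔼 s, 𝔼 t, u s * v t * κ (t - s)) = T / p ^ 2 := by
    simp only [Fintype.expect_eq_sum_div_card, ZMod.card]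
    rw [← sum_div, div_div, ← pow_two, hT, sum_comm]
    congr 1
    refine sum_congr rfl fun t _ => ?_
    rw [sum_mul]
    exact sum_congr rfl fun s _ => by ring
  rw [h6]
  simp only [Fintype.expect_eq_sum_div_card, ZMod.card]
  rw [div_pow, div_le_iff₀ (by positivity)]
  refine h5.trans (le_of_eq ?_)
  field_simp

lemma sum_push_mul {M : Type*} [AddCommMonoid M] [Module ℝ M] (g : ℤ[X]) (π : ZMod p → ℝ)
    (φ : ZMod p → M) : ∑ t, push p g π t • φ t = ∑ n, π n • φ (evz p g n) := by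
  unfold push
  simp_rw [sum_smul]
  rw [← sum_fiberwise (s := univ) (g := fun n => evz p g n) (f := fun n => π n • φ (evz p g n))]
  refine sum_congr rfl fun t _ => sum_congr rfl fun n hn => ?_
  rw [(mem_filter.1 hn).2]

lemma ft_push (g : ℤ[X]) (π : ZMod p → ℝ) (ξ : ZMod p) :
    ft (push p g π) ξ = ∑ n, (π n : ℂ) * ZMod.stdAddChar (evz p g n * ξ) := by
  have := sum_push_mul (M := ℂ) g π fun t => ZMod.stdAddChar (t * ξ)
  simpa only [ft, Complex.real_smul] using this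

lemma sum_push (g : ℤ[X]) (π : ZMod p → ℝ) : ∑ t, push p g π t = ∑ n, π n := by
  have := sum_push_mul (M := ℝ) g π fun _ => 1
  simpa using this

end Fourier

/-- the number of zeros of a nonzero polynomial over a finite field -/
lemma card_filter_eval_le {F : Type} [Field F] [Fintype F] [DecidableEq F] {Q : F[X]}
    (hQ : Q ≠ 0) : (univ.filter fun n => Q.eval n = 0).card ≤ Q.natDegree := by
  apply card_le_degree_of_subset_roots
  intro n hn
  rw [mem_roots hQ]
  exact (mem_filter.1 hn).2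

/-- a polynomial of degree less than `p` which is not constant has a nonzero derivative -/
lemma derivative_ne_zero {p : ℕ} [Fact p.Prime] {P : (ZMod p)[X]} (h1 : 1 ≤ P.natDegree)
    (hp : P.natDegree < p) : derivative P ≠ 0 := by
  intro h
  obtain ⟨n, hn⟩ : ∃ n, P.natDegree = n + 1 := ⟨P.natDegree - 1, by omega⟩
  have hP0 : P ≠ 0 := by rintro rfl; simp at h1
  have hl : P.coeff (n + 1) ≠ 0 := by rw [← hn]; exact leadingCoeff_ne_zero.2 hP0
  have h2 := congrArg (fun Q => coeff Q n) h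
  simp only [coeff_derivative, coeff_zero] at h2
  have hc : ((n + 1 : ℕ) : ZMod p) ≠ 0 := by
    rw [Ne, ZMod.natCast_eq_zero_iff]
    exact Nat.not_dvd_of_pos_of_lt (by omega) (by omega)
  exact mul_ne_zero hl (by exact_mod_cast hc) h2

/-- at most `k + 1` residues are not admissible -/
lemma card_compl_adm_le (pr : Bool) (p : ℕ) [NeZero p] (r d k : ℕ) (g : ℤ[X]) (hp : p.Prime)
    (hkp : k < p) (hk : g.natDegree ≤ k) (hg : ∃ j, 1 ≤ j ∧ ¬ (p : ℤ) ∣ g.coeff j)
    (hrd : pr = true → Nat.Coprime r d) : (adm pr p r d g)ᶜ.card ≤ k + 1 := by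
  have : Fact p.Prime := ⟨hp⟩
  set P := g.map (Int.castRingHom (ZMod p)) with hP
  have hPk : P.natDegree ≤ k := natDegree_map_le.trans hk
  have hd : derivative P ≠ 0 := derivative_ne_zero (natDegree_map_pos hg) (hPk.trans_lt hkp)
  have h1 := card_filter_eval_le hd
  have h2 : (derivative P).natDegree ≤ k := (natDegree_derivative_le P).trans (by omega)
  have h3 : (univ.filter fun n : ZMod p => pr = true ∧ (r : ZMod p) + d * n = 0).card ≤ 1 := by
    rw [card_le_one]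
    intro a ha b hb
    obtain ⟨hpr, ha⟩ := (mem_filter.1 ha).2
    obtain ⟨-, hb⟩ := (mem_filter.1 hb).2
    have hd0 : (d : ZMod p) ≠ 0 := by
      intro h0
      rw [h0, zero_mul, add_zero] at ha
      rw [ZMod.natCast_eq_zero_iff] at h0 ha
      exact hp.one_lt.ne' (Nat.eq_one_of_dvd_coprimes (hrd hpr) ha h0)
    apply mul_left_cancel₀ hd0
    linear_combination ha - hb
  have h4 : (adm pr p r d g)ᶜ ⊆ (univ.filter fun n => (derivative P).eval n = 0) ∪
      univ.filter fun n : ZMod p => pr = true ∧ (r : ZMod p) + d * n = 0 := by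
    intro n hn
    rw [mem_compl, adm, mem_filter] at hn
    simp only [mem_union, mem_filter, mem_univ, true_and]
    by_contra hc
    push Not at hc
    refine hn ⟨mem_univ _, ?_, hc.2⟩
    rw [evz, ← derivative_map]
    exact hc.1
  calc _ ≤ _ := card_le_card h4
    _ ≤ _ := card_union_le _ _
    _ ≤ k + 1 := by omega

lemma wadm_nonneg (pr : Bool) (p : ℕ) [NeZero p] (r d : ℕ) (g : ℤ[X]) (n : ZMod p) :
    0 ≤ wadm pr p r d g n := by
  unfold wadm; split_ifs <;> positivity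

lemma ker_nonneg (pr : Bool) (p : ℕ) [NeZero p] (r d : ℕ) (g : ℤ[X]) (t : ZMod p) :
    0 ≤ ker pr p r d g t :=
  sum_nonneg fun n _ => wadm_nonneg pr p r d g n

lemma sum_wadm_mul {M : Type*} [AddCommMonoid M] [Module ℝ M] (pr : Bool) (p : ℕ) [NeZero p]
    (r d : ℕ) (g : ℤ[X]) (φ : ZMod p → M) : ∑ n, wadm pr p r d g n • φ n =
      ((p : ℝ) / (adm pr p r d g).card) • ∑ n ∈ adm pr p r d g, φ n := by
  unfold wadm
  simp_rw [ite_smul, zero_smul]
  rw [sum_ite_mem, univ_inter, smul_sum]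

/-- the admissible weight has mean one as soon as there is an admissible residue -/
lemma expect_wadm (pr : Bool) (p : ℕ) [NeZero p] (r d : ℕ) (g : ℤ[X])
    (h : (adm pr p r d g).Nonempty) : 𝔼 n, wadm pr p r d g n = 1 := by
  have h1 := sum_wadm_mul (M := ℝ) pr p r d g fun _ => 1
  have hp0 : (0 : ℝ) < p := by exact_mod_cast Nat.pos_of_ne_zero (NeZero.ne p)
  have h2 : (0 : ℝ) < (adm pr p r d g).card := by exact_mod_cast h.card_pos
  simp only [smul_eq_mul, mul_one, sum_const, nsmul_eq_mul] at h1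
  rw [Fintype.expect_eq_sum_div_card, ZMod.card, h1]
  field_simp

/-- **Module C3b**, with the additional fact that the weight has mean one. -/
theorem localExp' (k : ℕ) : ∃ (δ : ℝ) (p₀ : ℕ), 0 < δ ∧
    ∀ (pr : Bool) (p : ℕ) [NeZero p] (r d : ℕ) (g : ℤ[X]),
    p.Prime → p₀ < p → g.natDegree ≤ k → (∃ j, 1 ≤ j ∧ ¬ (p : ℤ) ∣ g.coeff j) →
    (pr = true → Nat.Coprime r d) →
    (𝔼 n, wadm pr p r d g n = 1) ∧ (∀ n, wadm pr p r d g n ≤ 2) ∧
      (∀ t, ker pr p r d g t ≤ 2 * k) ∧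
      𝔼 t, ker pr p r d g t = 1 ∧ OpBd (ker pr p r d g) ((p : ℝ) ^ (-δ)) := by
  obtain ⟨δ, p₀, hδ, hδ1, hkp₀, H⟩ := complete_zmod k
  -- `2 (k + 2) ≤ p ^ (δ / 2)` for large `p`
  obtain ⟨p₁, hp₁⟩ : ∃ p₁ : ℕ, ∀ p : ℕ, p₁ < p → (2 * (k + 2) : ℝ) ≤ (p : ℝ) ^ (δ / 2) := by
    refine ⟨⌈(2 * (k + 2) : ℝ) ^ (2 / δ)⌉₊, fun p hp => ?_⟩
    have h1 : (2 * (k + 2) : ℝ) ^ (2 / δ) ≤ p :=
      (Nat.le_ceil _).trans (by exact_mod_cast hp.le)
    calc (2 * (k + 2) : ℝ) = ((2 * (k + 2) : ℝ) ^ (2 / δ)) ^ (δ / 2) := by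
          rw [← Real.rpow_mul (by positivity), show 2 / δ * (δ / 2) = 1 by field_simp,
            Real.rpow_one]
      _ ≤ _ := by gcongr
  refine ⟨δ / 2, max p₀ p₁, by positivity, ?_⟩
  intro pr p _ r d g hp hpp hk hg hrd
  have : Fact p.Prime := ⟨hp⟩
  have hp₀ : p₀ < p := (le_max_left _ _).trans_lt hpp
  have hbig := hp₁ p ((le_max_right _ _).trans_lt hpp)
  have hp1 : (1 : ℝ) ≤ p := by exact_mod_cast hp.one_lt.le
  have hp0 : (0 : ℝ) < p := by linarith
  have hle : (p : ℝ) ^ (δ / 2) ≤ p := by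
    conv_rhs => rw [← Real.rpow_one p]
    exact Real.rpow_le_rpow_of_exponent_le hp1 (by linarith)
  have hc := card_compl_adm_le pr p r d k g hp (by omega) hk hg hrd
  have hcR : (((adm pr p r d g)ᶜ.card : ℕ) : ℝ) ≤ k + 1 := by exact_mod_cast hc
  have hsum : ((adm pr p r d g).card : ℝ) + ((adm pr p r d g)ᶜ.card : ℕ) = p := by
    have := card_add_card_compl (adm pr p r d g)
    rw [ZMod.card] at this
    exact_mod_cast this
  have hA : (p : ℝ) / 2 ≤ (adm pr p r d g).card := by linarith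
  have hA0 : (0 : ℝ) < (adm pr p r d g).card := by linarith
  have hw : (p : ℝ) / (adm pr p r d g).card ≤ 2 := by rw [div_le_iff₀ hA0]; linarith
  have hw2 : ∀ n, wadm pr p r d g n ≤ 2 := by
    intro n; unfold wadm; split_ifs
    · exact hw
    · norm_num
  have hmean := expect_wadm pr p r d g (card_pos.1 (by exact_mod_cast hA0))
  set P := g.map (Int.castRingHom (ZMod p)) with hP
  have hP1 : 1 ≤ P.natDegree := natDegree_map_pos hg
  have hPk : P.natDegree ≤ k := natDegree_map_le.trans hk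
  refine ⟨hmean, hw2, fun t => ?_, ?_, ?_⟩
  · have hQ : P - C t ≠ 0 := by
      intro h
      have := natDegree_sub_C (p := P) (a := t)
      rw [h, natDegree_zero] at this
      omega
    have h1 := card_filter_eval_le hQ
    rw [natDegree_sub_C] at h1
    have h2 : (univ.filter fun n => evz p g n = t).card ≤ k := by
      refine le_trans (le_of_eq ?_) (h1.trans hPk)
      congr 1
      ext n
      rw [mem_filter, mem_filter, eval_sub, eval_C, sub_eq_zero]
      rfl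
    calc ker pr p r d g t ≤ ∑ _n ∈ univ.filter fun n => evz p g n = t, (2 : ℝ) :=
          sum_le_sum fun n _ => hw2 n
      _ = 2 * ((univ.filter fun n => evz p g n = t).card : ℝ) := by
          rw [sum_const, nsmul_eq_mul, mul_comm]
      _ ≤ 2 * k := by gcongr
  · rw [Fintype.expect_eq_sum_div_card] at hmean ⊢
    rw [ker, sum_push, hmean]
  · refine opBd_of_ft _ fun ξ hξ => ?_
    have h1 := H p (C ξ * P) hp hp₀ (by rwa [natDegree_C_mul hξ]) (by rwa [natDegree_C_mul hξ])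
    have h2 := sum_wadm_mul (M := ℂ) pr p r d g fun n => ZMod.stdAddChar (evz p g n * ξ)
    simp only [Complex.real_smul] at h2
    rw [ker, ft_push, h2, norm_mul, Complex.norm_real, Real.norm_eq_abs,
      abs_of_nonneg (by positivity)]
    have h3 : ∑ n ∈ adm pr p r d g, ZMod.stdAddChar (evz p g n * ξ) =
        ∑ n, ZMod.stdAddChar ((C ξ * P).eval n) -
          ∑ n ∈ (adm pr p r d g)ᶜ, ZMod.stdAddChar (evz p g n * ξ) := by
      rw [eq_sub_iff_add_eq, sum_add_sum_compl]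
      refine sum_congr rfl fun n _ => ?_
      rw [eval_mul, eval_C, mul_comm]
      rfl
    have h4 : ‖∑ n ∈ (adm pr p r d g)ᶜ, ZMod.stdAddChar (evz p g n * ξ)‖ ≤ k + 1 := by
      refine (norm_sum_le _ _).trans ?_
      simpa using hcR
    have h5 : (1 : ℝ) ≤ (p : ℝ) ^ (1 - δ) := Real.one_le_rpow hp1 (by linarith)
    have h6 : ‖∑ n ∈ adm pr p r d g, ZMod.stdAddChar (evz p g n * ξ)‖ ≤
        (k + 2) * (p : ℝ) ^ (1 - δ) := by
      rw [h3]
      refine (norm_sub_le _ _).trans ?_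
      have : (k + 1 : ℝ) ≤ (k + 1) * (p : ℝ) ^ (1 - δ) := le_mul_of_one_le_right (by positivity) h5
      linarith
    calc _ ≤ 2 * ((k + 2) * (p : ℝ) ^ (1 - δ)) := by gcongr
      _ = 2 * (k + 2) * (p : ℝ) ^ (1 - δ) := by ring
      _ ≤ (p : ℝ) ^ (δ / 2) * (p : ℝ) ^ (1 - δ) := by gcongr
      _ = (p : ℝ) ^ (-(δ / 2)) * p := by
          rw [← Real.rpow_add hp0, ← Real.rpow_add_one hp0.ne']
          congr 1; ring

/-- **Module C3b**. -/
theorem localExp : LocalExpStmt := by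
  intro k
  obtain ⟨δ, p₀, hδ, H⟩ := localExp' k
  exact ⟨δ, p₀, hδ, fun pr p _ r d g h1 h2 h3 h4 h5 => (H pr p r d g h1 h2 h3 h4 h5).2⟩

end Crest.Agent.N41.Poly
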