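import Crest.Agent.N41.Poly.Small
import Crest.Agent.N41.Poly.Kernel

/-!
# Row 41, module POLY, part 5 (helper6): `RefineStmt`, `SmallStmt`, covariance of the kernels
-/

set_option autoImplicit false

open Polynomial Finset
open scoped BigOperators

namespace Crest.Agent.N41.Poly

lemma inter_of_root {pr : Bool} {r d : ℕ} {g : ℤ[X]} (h : Root pr r d g) :
    Inter (pr = true) g r d := by
  intro q hq
  obtain ⟨n, h1, h2⟩ := h q hq
  exact ⟨n, h1, fun hp => (h2 hp).of_mul_right_left⟩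

lemma root_of_inter {pr : Bool} {r d : ℕ} {g : ℤ[X]} (hd : 1 ≤ d)
    (h : Inter (pr = true) g r d) : Root pr r d g := by
  intro m hm
  obtain ⟨n, h1, h2⟩ := h (m * d) (Nat.mul_pos hm hd)
  push_cast at h1 h2
  exact ⟨n, (Dvd.intro _ rfl).trans h1, h2⟩

/-- dividing by a constant preserves `Inter` -/
lemma Inter.of_C_mul {pr : Prop} {g : ℤ[X]} {r d c : ℤ} (hc : c ≠ 0)
    (h : Inter pr (C c * g) r d) : Inter pr g r d := by
  intro Q hQ
  obtain ⟨t, ht1, ht2⟩ := h (Q * c.natAbs)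
    (Nat.one_le_iff_ne_zero.2 (mul_ne_zero (by omega) (Int.natAbs_ne_zero.2 hc)))
  refine ⟨t, ?_, fun hp => ?_⟩
  · rw [eval_mul, eval_C, Nat.cast_mul, mul_comm] at ht1
    have h1 : c * (Q : ℤ) ∣ c * g.eval t :=
      (mul_dvd_mul_right (Int.dvd_natAbs.2 dvd_rfl) _).trans ht1
    exact (mul_dvd_mul_iff_left hc).1 h1
  · have := ht2 hp
    push_cast at this
    exact this.of_mul_right_left

/-- in the prime case the progression is reduced -/
theorem Root.coprime {r d : ℕ} {g : ℤ[X]} (h : Root true r d g) : Nat.Coprime r d := by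
  obtain ⟨n, -, h1⟩ := h 1 le_rfl
  have h2 := h1 rfl
  rw [Nat.cast_one, one_mul] at h2
  exact Nat.isCoprime_iff_coprime.1 ((IsCoprime.add_mul_left_left_iff).1 h2)

theorem Root.coprime' {pr : Bool} {r d : ℕ} {g : ℤ[X]} (h : Root pr r d g) (hp : pr = true) :
    Nat.Coprime r d := by
  subst hp; exact Root.coprime h

/-- a primitive polynomial with roots is not constant modulo any prime -/
theorem Root.nonconst {pr : Bool} {r d : ℕ} {g : ℤ[X]} (h : Root pr r d g) (hg : g.IsPrimitive)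
    {p : ℕ} (hp : p.Prime) : ∃ j, 1 ≤ j ∧ ¬ (p : ℤ) ∣ g.coeff j := by
  obtain ⟨n, h1, -⟩ := h p hp.one_lt.le
  obtain ⟨j, h2, -, h3⟩ := exists_coeff_not_dvd hg hp ⟨n, h1⟩
  exact ⟨j, h2, h3⟩

/-- **Module C1**. -/
theorem refine' : RefineStmt := by
  intro pr r d m g hg0 hd hm hg
  have hc0 : g.content ≠ 0 := by rwa [Ne, content_eq_zero_iff]
  have hnn : 0 ≤ g.content := by
    rw [← normalize_content]
    exact Int.nonneg_of_normalize_eq_self (by simp)
  have hcast : ((g.content.natAbs : ℕ) : ℤ) = g.content := Int.natAbs_of_nonneg hnn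
  have hfac : C g.content * g.primPart = g := (eq_C_content_mul_primPart g).symm
  have h1 : Inter (pr = true) g.primPart r d :=
    Inter.of_C_mul hc0 (by rw [hfac]; exact inter_of_root hg)
  obtain ⟨s, lam, g', hs, hlam, h2, h3, h4, h5, h6⟩ :=
    refine (isPrimitive_primPart g) (natDegree_primPart g).le h1 hm
  refine ⟨s, g.content.natAbs * lam, g', hs,
    Nat.mul_pos (Int.natAbs_pos.2 hc0) hlam, Dvd.dvd.mul_left h2 _, mul_dvd_mul_left _ h3, ?_,
    h5, root_of_inter (Nat.mul_pos hd hm) (by push_cast; exact h6)⟩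
  rw [Nat.cast_mul, hcast, C_mul, mul_assoc, h4]
  conv_rhs => rw [← hfac]
  rw [mul_comp, C_comp]
  rfl

/-- **Module C2**. -/
theorem small : SmallStmt := by
  intro k p₀
  obtain ⟨W₁, hW₁, hdiv, H⟩ := small_primes k p₀
  refine ⟨W₁ ^ 2, Nat.one_le_pow _ _ hW₁, fun pr r d g hk hd hg hr => ?_⟩
  obtain ⟨n₀, W₂, P, h1, h2, h3, h4, h5, h6⟩ := H (pr = true) g r d hg hk (inter_of_root hr)
  have hW : 0 < W₁ ^ 2 := Nat.one_le_pow _ _ hW₁
  refine ⟨n₀, W₁, W₂, P, h1, by nlinarith, Nat.pos_of_dvd_of_pos h3 hW, Nat.le_of_dvd hW h3,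
    ?_, fun p hp hpW => ?_, fun p hp hpp => ⟨(hdiv p hp).2 hpp, (h5 p hp hpp).2⟩, fun hp => ?_⟩
  · rw [h4, add_sub_cancel]; rfl
  · refine (hdiv p hp).1 ?_
    rcases (Nat.Prime.dvd_mul hp).1 hpW with h | h
    · exact h
    · exact hp.dvd_of_dvd_pow (h.trans h3)
  · refine Nat.Coprime.mul_right ?_ ?_
    · exact (Nat.coprime_add_mul_left_left r d n₀).2 (Root.coprime' hr hp)
    · have := h6 hp
      exact Nat.isCoprime_iff_coprime.1 (by exact_mod_cast this)

section Cov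

variable {p : ℕ} {g g' : ℤ[X]} {ρ m μ : ℤ}

lemma evz_comp (h : C μ * g' = g.comp (C ρ + C m * X)) (n : ZMod p) :
    (μ : ZMod p) * evz p g' n = evz p g (ρ + m * n) := by
  have h1 := congrArg (fun Q => evz p Q n) h
  simpa [evz, Polynomial.map_comp, eval_comp] using h1

lemma evz_derivative_comp (h : C μ * g' = g.comp (C ρ + C m * X)) (n : ZMod p) :
    (μ : ZMod p) * evz p (derivative g') n = m * evz p (derivative g) (ρ + m * n) := by
  have h1 := congrArg (fun Q => evz p (derivative Q) n) h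
  simpa [evz, derivative_comp, Polynomial.map_comp, eval_comp] using h1

end Cov

/-- the affine bijection `n ↦ ρ + m n` -/
noncomputable def aff {F : Type} [Field F] (ρ m : F) (hm : m ≠ 0) : F ≃ F :=
  (Equiv.mulLeft₀ m hm).trans (Equiv.addLeft ρ)

@[simp] lemma aff_apply {F : Type} [Field F] (ρ m : F) (hm : m ≠ 0) (n : F) :
    aff ρ m hm n = ρ + m * n := rfl

/-- covariance of the admissible residues -/
lemma mem_adm_comp (pr : Bool) {p : ℕ} [NeZero p] (hp : p.Prime) (r d ρ m μ : ℕ) {g g' : ℤ[X]}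
    (hm : ¬ p ∣ m * μ) (h : C (μ : ℤ) * g' = g.comp (C (ρ : ℤ) + C (m : ℤ) * X)) (n : ZMod p) :
    n ∈ adm pr p (r + d * ρ) (d * m) g' ↔ (ρ : ZMod p) + m * n ∈ adm pr p r d g := by
  have : Fact p.Prime := ⟨hp⟩
  have hm0 : (m : ZMod p) ≠ 0 := by
    rw [Ne, ZMod.natCast_eq_zero_iff]; exact fun h => hm (h.mul_right _)
  have hμ0 : (μ : ZMod p) ≠ 0 := by
    rw [Ne, ZMod.natCast_eq_zero_iff]; exact fun h => hm (h.mul_left _)
  have h1 := evz_derivative_comp h n
  simp only [Int.cast_natCast] at h1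
  rw [adm, adm, mem_filter, mem_filter]
  have h2 : ((r + d * ρ : ℕ) : ZMod p) + ((d * m : ℕ) : ZMod p) * n = r + d * (ρ + m * n) := by
    push_cast; ring
  rw [h2, ← mul_ne_zero_iff_left hμ0, h1, mul_ne_zero_iff_left hm0]
  simp only [mem_univ]

/-- covariance of the admissible weight -/
theorem wadm_comp (pr : Bool) {p : ℕ} [NeZero p] (hp : p.Prime) (r d ρ m μ : ℕ) {g g' : ℤ[X]}
    (hm : ¬ p ∣ m * μ) (h : C (μ : ℤ) * g' = g.comp (C (ρ : ℤ) + C (m : ℤ) * X)) (n : ZMod p) :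
    wadm pr p (r + d * ρ) (d * m) g' n = wadm pr p r d g ((ρ : ZMod p) + m * n) := by
  have : Fact p.Prime := ⟨hp⟩
  have hm0 : (m : ZMod p) ≠ 0 := by
    rw [Ne, ZMod.natCast_eq_zero_iff]; exact fun h => hm (h.mul_right _)
  have hc : (adm pr p (r + d * ρ) (d * m) g').card = (adm pr p r d g).card :=
    card_equiv (aff (ρ : ZMod p) m hm0) fun n => mem_adm_comp pr hp r d ρ m μ hm h n
  unfold wadm
  rw [hc]
  simp only [mem_adm_comp pr hp r d ρ m μ hm h n]

/-- **Covariance of the kernels.** -/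
theorem ker_comp (pr : Bool) {p : ℕ} [NeZero p] (hp : p.Prime) (r d ρ m μ : ℕ) {g g' : ℤ[X]}
    (hm : ¬ p ∣ m * μ) (h : C (μ : ℤ) * g' = g.comp (C (ρ : ℤ) + C (m : ℤ) * X)) (t : ZMod p) :
    ker pr p (r + d * ρ) (d * m) g' t = ker pr p r d g ((μ : ZMod p) * t) := by
  have : Fact p.Prime := ⟨hp⟩
  have hm0 : (m : ZMod p) ≠ 0 := by
    rw [Ne, ZMod.natCast_eq_zero_iff]; exact fun h => hm (h.mul_right _)
  have hμ0 : (μ : ZMod p) ≠ 0 := by
    rw [Ne, ZMod.natCast_eq_zero_iff]; exact fun h => hm (h.mul_left _)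
  unfold ker push
  refine sum_equiv (aff (ρ : ZMod p) m hm0) (fun n => ?_)
    fun n _ => wadm_comp pr hp r d ρ m μ hm h n
  have h1 := evz_comp h n
  simp only [Int.cast_natCast] at h1
  rw [mem_filter, mem_filter, aff_apply, ← h1, mul_right_inj' hμ0]
  simp only [mem_univ]

end Crest.Agent.N41.Poly

namespace Crest.Agent.N41

/-- **Module C1**. -/
theorem refine : RefineStmt := Poly.refine'

/-- **Module C2**. -/
theorem small : SmallStmt := Poly.small

/-- **Module C3a**. -/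
theorem complete : CompleteStmt := Poly.complete

/-- **Module C3b**. -/
theorem localExp : LocalExpStmt := Poly.localExp

end Crest.Agent.N41
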