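import Crest.Agent.N41.Defs

/-!
# Row 41, module POLY, part 3 (helper6): complete exponential sums modulo a prime

Weyl differencing over `ZMod p`.
-/

set_option autoImplicit false

open Polynomial Finset

namespace Crest.Agent.N41.Poly

/-- the difference polynomial has degree one less -/
lemma natDegree_taylor_sub {F : Type} [Field F] (P : F[X]) (n : ℕ) (hP : P.natDegree = n + 1)
    (hc : ((n + 1 : ℕ) : F) ≠ 0) {h : F} (hh : h ≠ 0) : (taylor h P - P).natDegree = n := by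
  have hP0 : P ≠ 0 := by rintro rfl; simp at hP
  have hl : P.coeff (n + 1) ≠ 0 := by
    rw [← hP]; exact leadingCoeff_ne_zero.2 hP0
  apply natDegree_eq_of_le_of_coeff_ne_zero
  · rw [natDegree_le_iff_coeff_eq_zero]
    intro N hN
    rcases Nat.lt_or_ge (n + 1) N with h1 | h1
    · rw [coeff_sub, coeff_eq_zero_of_natDegree_lt (by rw [natDegree_taylor]; omega),
        coeff_eq_zero_of_natDegree_lt (by omega), sub_zero]
    · have : N = P.natDegree := by omega
      rw [this, coeff_sub, coeff_taylor_natDegree, leadingCoeff, sub_self]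
  · have h1 : (hasseDeriv n P).natDegree ≤ 1 := by
      have := natDegree_hasseDeriv_le P n
      omega
    rw [coeff_sub, taylor_coeff, eq_X_add_C_of_natDegree_le_one h1, hasseDeriv_coeff,
      hasseDeriv_coeff]
    simp only [eval_add, eval_mul, eval_C, eval_X, zero_add, Nat.choose_self, Nat.cast_one,
      one_mul, add_sub_cancel_right]
    rw [add_comm 1 n, Nat.choose_succ_self_right]
    exact mul_ne_zero (mul_ne_zero hc hl) hh

/-- Weyl differencing on a finite field -/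
lemma norm_sq_sum_le {F : Type} [Field F] [Fintype F] (ψ : AddChar F ℂ) (P : F[X]) :
    ‖∑ x, ψ (P.eval x)‖ ^ 2 ≤ ∑ h, ‖∑ x, ψ ((taylor h P - P).eval x)‖ := by
  have h1 : ((‖∑ x, ψ (P.eval x)‖ ^ 2 : ℝ) : ℂ) = ∑ h, ∑ x, ψ ((taylor h P - P).eval x) := by
    rw [← Complex.normSq_eq_norm_sq, ← Complex.mul_conj, map_sum, sum_mul_sum, sum_comm,
      sum_comm (f := fun h x => ψ ((taylor h P - P).eval x))]
    refine sum_congr rfl fun x _ => ?_
    rw [← Equiv.sum_comp (Equiv.addLeft x)]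
    refine sum_congr rfl fun h _ => ?_
    rw [← AddChar.map_neg_eq_conj, ← AddChar.map_add_eq_mul, eval_sub, taylor_eval,
      sub_eq_add_neg]
    rfl
  have h2 : ‖∑ x, ψ (P.eval x)‖ ^ 2 = ‖((‖∑ x, ψ (P.eval x)‖ ^ 2 : ℝ) : ℂ)‖ := by
    rw [Complex.norm_real, Real.norm_eq_abs, abs_of_nonneg (by positivity)]
  rw [h2, h1]
  exact norm_sum_le _ _

/-- the complete sum of a polynomial of degree `n + 1 < p` -/
lemma complete_aux (p : ℕ) [Fact p.Prime] (n : ℕ) : ∀ P : (ZMod p)[X], P.natDegree = n + 1 →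
    n + 1 < p → ‖∑ x, ZMod.stdAddChar (P.eval x)‖ ≤ 2 * p * (p : ℝ) ^ (-(1 / 2 ^ n : ℝ)) := by
  have hp : p.Prime := Fact.out
  have hp1 : (1 : ℝ) ≤ p := by exact_mod_cast hp.one_lt.le
  have hp0 : (0 : ℝ) < p := by linarith
  induction n with
  | zero =>
    intro P hP _
    have hP0 : P ≠ 0 := by rintro rfl; simp at hP
    have hl : P.coeff 1 ≠ 0 := by
      have := leadingCoeff_ne_zero.2 hP0
      rwa [leadingCoeff, hP] at this
    have h1 : ∀ x, ZMod.stdAddChar (P.eval x) =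
        ZMod.stdAddChar (x * P.coeff 1) * ZMod.stdAddChar (P.coeff 0) := by
      intro x
      have h2 := congrArg (eval x) (eq_X_add_C_of_natDegree_le_one hP.le)
      rw [eval_add, eval_mul, eval_C, eval_C, eval_X, mul_comm] at h2
      rw [← AddChar.map_add_eq_mul, h2]
    simp_rw [h1]
    rw [← sum_mul, AddChar.sum_mulShift _ (ZMod.isPrimitive_stdAddChar p), if_neg hl]
    simp only [Nat.cast_zero, zero_mul, norm_zero]
    positivity
  | succ n ih =>
    intro P hP hn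
    have hc : ((n + 1 + 1 : ℕ) : ZMod p) ≠ 0 := by
      rw [Ne, ZMod.natCast_eq_zero_iff]
      exact Nat.not_dvd_of_pos_of_lt (by omega) hn
    set ε : ℝ := (p : ℝ) ^ (-(1 / 2 ^ n : ℝ)) with hε
    have hε0 : 0 < ε := Real.rpow_pos_of_pos hp0 _
    have hε1 : 1 ≤ p * ε := by
      have h1 : (p : ℝ) ^ (-1 : ℝ) ≤ ε := by
        apply Real.rpow_le_rpow_of_exponent_le hp1
        have : (1 / 2 ^ n : ℝ) ≤ 1 := by
          rw [div_le_one (by positivity)]; exact one_le_pow₀ (by norm_num)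
        linarith
      rw [Real.rpow_neg_one] at h1
      calc (1 : ℝ) = p * (p : ℝ)⁻¹ := by field_simp
        _ ≤ p * ε := by gcongr
    have h1 : ∀ h : ZMod p, ‖∑ x, ZMod.stdAddChar ((taylor h P - P).eval x)‖ ≤
        (if h = 0 then (p : ℝ) else 0) + 2 * p * ε := by
      intro h
      split_ifs with hh
      · subst hh
        simp only [taylor_zero, sub_self, eval_zero,
          AddChar.map_zero_eq_one, sum_const, card_univ, ZMod.card, nsmul_eq_mul, mul_one,
          Complex.norm_natCast, le_add_iff_nonneg_right]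
        positivity
      · rw [zero_add]
        exact ih _ (natDegree_taylor_sub P (n + 1) hP hc hh) (by omega)
    have h2 : ‖∑ x, ZMod.stdAddChar (P.eval x)‖ ^ 2 ≤ p + p * (2 * p * ε) := by
      refine (norm_sq_sum_le _ P).trans ((sum_le_sum fun h _ => h1 h).trans ?_)
      rw [sum_add_distrib]
      simp
    have h3 : ((p : ℝ) ^ (-(1 / 2 ^ (n + 1) : ℝ))) ^ 2 = ε := by
      rw [← Real.rpow_natCast, ← Real.rpow_mul hp0.le, hε]
      congr 1
      push_cast
      field_simp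
      ring
    refine (abs_le_of_sq_le_sq' ?_ (by positivity)).2
    rw [mul_pow, mul_pow, h3]
    nlinarith

/-- a polynomial of degree at most `k` which is not constant modulo `p` -/
lemma natDegree_map_pos {p : ℕ} {g : ℤ[X]} (hg : ∃ j, 1 ≤ j ∧ ¬ (p : ℤ) ∣ g.coeff j) :
    1 ≤ (g.map (Int.castRingHom (ZMod p))).natDegree := by
  obtain ⟨j, hj, hd⟩ := hg
  refine hj.trans (le_natDegree_of_ne_zero ?_)
  rw [coeff_map, eq_intCast, Ne, ZMod.intCast_zmod_eq_zero_iff_dvd]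
  exact hd

/-- complete sums, `ZMod p` form -/
theorem complete_zmod (k : ℕ) : ∃ (δ : ℝ) (p₀ : ℕ), 0 < δ ∧ δ ≤ 1 ∧ k ≤ p₀ ∧
    ∀ (p : ℕ) [NeZero p] (P : (ZMod p)[X]), p.Prime → p₀ < p → 1 ≤ P.natDegree →
      P.natDegree ≤ k → ‖∑ x, ZMod.stdAddChar (P.eval x)‖ ≤ (p : ℝ) ^ (1 - δ) := by
  refine ⟨1 / 2 ^ (k + 1), max k (2 ^ 2 ^ (k + 1)), by positivity, ?_, le_max_left _ _, ?_⟩
  · rw [div_le_one (by positivity)]; exact one_le_pow₀ (by norm_num)
  intro p _ P hp hp₀ h1 hk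
  have : Fact p.Prime := ⟨hp⟩
  have hp1 : (1 : ℝ) ≤ p := by exact_mod_cast hp.one_lt.le
  have hp0 : (0 : ℝ) < p := by linarith
  obtain ⟨n, hn⟩ : ∃ n, P.natDegree = n + 1 := ⟨P.natDegree - 1, by omega⟩
  have hkp : k < p := (le_max_left _ _).trans_lt hp₀
  have h2p : 2 ^ 2 ^ (k + 1) ≤ p := ((le_max_right _ _).trans_lt hp₀).le
  have h2 : (2 : ℝ) ≤ (p : ℝ) ^ (1 / 2 ^ (k + 1) : ℝ) := by
    have h3 : ((2 : ℝ) ^ 2 ^ (k + 1)) ≤ p := by exact_mod_cast h2p
    calc (2 : ℝ) = ((2 : ℝ) ^ 2 ^ (k + 1)) ^ (1 / 2 ^ (k + 1) : ℝ) := by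
          rw [← Real.rpow_natCast, ← Real.rpow_mul (by norm_num)]
          push_cast
          rw [mul_one_div_cancel (by positivity), Real.rpow_one]
      _ ≤ _ := by gcongr
  have h3 : (p : ℝ) ^ (-(1 / 2 ^ n : ℝ)) ≤ (p : ℝ) ^ (-(1 / 2 ^ k : ℝ)) := by
    apply Real.rpow_le_rpow_of_exponent_le hp1
    have : (1 / 2 ^ k : ℝ) ≤ 1 / 2 ^ n := by
      apply one_div_le_one_div_of_le (by positivity)
      exact pow_le_pow_right₀ (by norm_num) (by omega)
    linarith
  calc _ ≤ 2 * p * (p : ℝ) ^ (-(1 / 2 ^ n : ℝ)) := complete_aux p n P hn (by omega)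
    _ ≤ (p : ℝ) ^ (1 / 2 ^ (k + 1) : ℝ) * p * (p : ℝ) ^ (-(1 / 2 ^ k : ℝ)) := by gcongr
    _ = (p : ℝ) ^ ((1 / 2 ^ (k + 1) : ℝ) + 1 + -(1 / 2 ^ k : ℝ)) := by
        rw [Real.rpow_add hp0, Real.rpow_add hp0, Real.rpow_one]
    _ = _ := by
        congr 1
        field_simp
        ring

/-- sums over residues as sums over an interval -/
lemma sum_range_eq_sum_zmod {M : Type*} [AddCommMonoid M] (p : ℕ) [NeZero p] (f : ZMod p → M) :
    ∑ n ∈ range p, f (n : ZMod p) = ∑ x, f x := by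
  refine sum_nbij' (fun n => (n : ZMod p)) (fun x => x.val) ?_ ?_ ?_ ?_ ?_
  · intro n _; exact mem_univ _
  · intro x _; exact mem_range.2 (ZMod.val_lt x)
  · intro n hn; exact ZMod.val_cast_of_lt (mem_range.1 hn)
  · intro x _; exact ZMod.natCast_zmod_val x
  · intro n _; rfl

lemma evz_intCast (p : ℕ) (g : ℤ[X]) (n : ℤ) : evz p g (n : ZMod p) = ((g.eval n : ℤ) : ZMod p) := by
  unfold evz
  rw [eval_map, ← eq_intCast (Int.castRingHom (ZMod p)) n, eval₂_at_apply]
  rfl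

lemma e_div_eq (p : ℕ) [NeZero p] (j : ℤ) :
    Exp.e ((j : ℝ) / p) = ZMod.stdAddChar (j : ZMod p) := by
  rw [ZMod.stdAddChar_coe, Exp.e]
  congr 1
  push_cast
  ring

/-- **Module C3a**. -/
theorem complete : CompleteStmt := by
  intro k
  obtain ⟨δ, p₀, hδ, -, -, H⟩ := complete_zmod k
  refine ⟨δ, p₀, hδ, fun p g a hp hp₀ hk hg ha => ?_⟩
  have : Fact p.Prime := ⟨hp⟩
  have ha' : (a : ZMod p) ≠ 0 := by rwa [Ne, ZMod.intCast_zmod_eq_zero_iff_dvd]
  have h1 := H p (C (a : ZMod p) * g.map (Int.castRingHom (ZMod p))) hp hp₀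
    (by rw [natDegree_C_mul ha']; exact natDegree_map_pos hg)
    (by rw [natDegree_C_mul ha']; exact natDegree_map_le.trans hk)
  rw [← sum_range_eq_sum_zmod] at h1
  convert h1 using 2
  refine sum_congr rfl fun n _ => ?_
  rw [e_div_eq, eval_mul, eval_C]
  congr 1
  have := evz_intCast p g n
  rw [Int.cast_natCast] at this
  rw [Int.cast_mul, ← this]
  rfl

end Crest.Agent.N41.Poly
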