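import Crest.Agent.N41.Poly.Basic

/-!
# Row 41, module POLY, part 2 (helper6): the small primes

For a primitive intersective `g` of degree at most `k` there is a class `n0 mod W1` on which
`(g (n0 + W1 X) - g n0) / W2` is a linear unit polynomial modulo every prime `l ≤ p0`.
-/

set_option autoImplicit false

open Polynomial

namespace Crest.Agent.N41.Poly

/-- integer polynomials all of whose values are divisible by `c` -/
lemma exists_dvd_coeff_of_values (m : ℕ) : ∃ W : ℕ, 0 < W ∧ ∀ u : ℤ[X], u.natDegree ≤ m →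
    ∀ c : ℤ, (∀ j : ℤ, c ∣ u.eval j) → ∀ i, c ∣ W * u.coeff i := by
  set V : Matrix (Fin (m + 1)) (Fin (m + 1)) ℤ := Matrix.vandermonde fun j => ((j : ℕ) : ℤ)
    with hV
  have hdet : V.det ≠ 0 := by
    rw [hV, Matrix.det_vandermonde_ne_zero_iff]
    intro a b hab
    simpa [Fin.ext_iff] using hab
  refine ⟨V.det.natAbs, Int.natAbs_pos.2 hdet, fun u hu c hc i => ?_⟩
  by_cases hi : i ≤ m
  swap
  · rw [coeff_eq_zero_of_natDegree_lt (by omega), mul_zero]; exact dvd_zero _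
  have h1 : V.mulVec (fun a : Fin (m + 1) => u.coeff a) =
      fun j : Fin (m + 1) => u.eval ((j : ℕ) : ℤ) := by
    funext j
    rw [eval_eq_sum_range' (n := m + 1) (by omega), Finset.sum_range]
    simp [hV, Matrix.mulVec, dotProduct, Matrix.vandermonde_apply, mul_comm]
  have h2 : (V.adjugate.mulVec fun j : Fin (m + 1) => u.eval ((j : ℕ) : ℤ)) =
      V.det • fun a : Fin (m + 1) => u.coeff a := by
    rw [← h1, Matrix.mulVec_mulVec, Matrix.adjugate_mul, Matrix.smul_mulVec, Matrix.one_mulVec]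
  have h3 := congrFun h2 ⟨i, by omega⟩
  simp only [Pi.smul_apply, smul_eq_mul] at h3
  have h4 : c ∣ V.det * u.coeff i := by
    rw [← h3]
    simp only [Matrix.mulVec, dotProduct]
    exact Finset.dvd_sum fun j _ => Dvd.dvd.mul_left (hc _) _
  rw [Int.natCast_natAbs]
  rcases abs_choice V.det with h | h <;> rw [h]
  · exact h4
  · rw [neg_mul]; exact (dvd_neg).2 h4

/-- in the class of a root modulo `l` the derivative has bounded `l`-adic valuation somewhere -/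
lemma exists_deriv_not_dvd (k : ℕ) : ∃ T : ℕ, 1 ≤ T ∧ ∀ g : ℤ[X], g.IsPrimitive →
    g.natDegree ≤ k → ∀ l : ℕ, l.Prime → ∀ n : ℤ, (l : ℤ) ∣ g.eval n →
      ∃ j : ℤ, ¬ (l : ℤ) ^ T ∣ (derivative g).eval (n + l * j) := by
  obtain ⟨W, hW, h⟩ := exists_dvd_coeff_of_values k
  refine ⟨k + W * k.factorial, by have := Nat.factorial_pos k; nlinarith, ?_⟩
  intro g hg hk l hl n hn
  by_contra hcon
  push Not at hcon
  have hl0 : (l : ℤ) ≠ 0 := by exact_mod_cast hl.ne_zero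
  have hdeg : ((derivative g).comp (lin n l)).natDegree ≤ k := by
    rw [natDegree_comp_lin _ _ hl0]
    exact (natDegree_derivative_le g).trans (by omega)
  have h1 := h _ hdeg ((l : ℤ) ^ (k + W * k.factorial)) (fun j => by
    rw [eval_comp_lin]; exact hcon j)
  obtain ⟨i, hi1, hi2, hi3⟩ := exists_coeff_not_dvd (isPrimitive_taylor hg n) hl
    ⟨0, by rw [taylor_eval, zero_add]; exact hn⟩
  rw [natDegree_taylor] at hi2
  obtain ⟨i, rfl⟩ : ∃ j, i = j + 1 := ⟨i - 1, by omega⟩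
  have h2 := h1 i
  have h3 : taylor n (derivative g) = derivative (taylor n g) := by
    rw [taylor_apply, taylor_apply, derivative_comp]; simp
  rw [coeff_comp_lin, h3, coeff_derivative] at h2
  have hcop : IsCoprime ((l : ℤ) ^ (k + W * k.factorial)) ((taylor n g).coeff (i + 1)) := by
    apply IsCoprime.pow_left
    exact (Prime.coprime_iff_not_dvd (Nat.prime_iff_prime_int.1 hl)).2 hi3
  have h4 : (l : ℤ) ^ (k + W * k.factorial) ∣ (W * (i + 1) * (l : ℤ) ^ i : ℤ) := by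
    apply hcop.dvd_of_dvd_mul_right
    have e1 : (W * (i + 1) * (l : ℤ) ^ i : ℤ) * (taylor n g).coeff (i + 1) =
        W * ((taylor n g).coeff (i + 1) * (i + 1) * (l : ℤ) ^ i) := by ring
    rw [e1]; exact h2
  have h5 : (W * (i + 1) * (l : ℤ) ^ i : ℤ) ∣ (l : ℤ) ^ k * (W * k.factorial : ℕ) := by
    rw [mul_comm ((l : ℤ) ^ k)]
    apply mul_dvd_mul
    · push_cast
      apply mul_dvd_mul_left
      exact_mod_cast Nat.dvd_factorial (by omega) (by omega)
    · exact pow_dvd_pow _ (by omega)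
  have h6 := h4.trans h5
  rw [pow_add, mul_dvd_mul_iff_left (pow_ne_zero _ hl0)] at h6
  have h7 : l ^ (W * k.factorial) ∣ W * k.factorial := by exact_mod_cast h6
  have h8 := Nat.le_of_dvd (by have := Nat.factorial_pos k; positivity) h7
  exact absurd h8 (not_le.2 (Nat.lt_pow_self hl.one_lt))

/-- `P` is a linear unit polynomial modulo `l` vanishing at `0` -/
def LinMod (P : ℤ[X]) (l : ℕ) : Prop :=
  P.coeff 0 = 0 ∧ ¬ (l : ℤ) ∣ P.coeff 1 ∧ ∀ i, 2 ≤ i → (l : ℤ) ∣ P.coeff i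

lemma LinMod.exists_eq {P : ℤ[X]} {l : ℕ} (h : LinMod P l) :
    ∃ (u : ℤ) (P1 : ℤ[X]), ¬ (l : ℤ) ∣ u ∧ P = C u * X + C (l : ℤ) * P1 := by
  have : C (l : ℤ) ∣ P - C (P.coeff 1) * X := by
    rw [C_dvd_iff_dvd_coeff]
    intro i
    rw [coeff_sub, coeff_C_mul, coeff_X]
    rcases Nat.lt_or_ge i 2 with hi | hi
    · interval_cases i
      · simp [h.1]
      · simp
    · rw [if_neg (by omega), mul_zero, sub_zero]; exact h.2.2 i hi
  obtain ⟨P1, hP1⟩ := this
  exact ⟨P.coeff 1, P1, h.2.1, by rw [← hP1]; ring⟩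

/-- **Small primes.** -/
theorem small_primes (k p0 : ℕ) : ∃ W1 : ℕ, 1 ≤ W1 ∧ (∀ l : ℕ, l.Prime → (l ∣ W1 ↔ l ≤ p0)) ∧
    ∀ (pr : Prop) (g : ℤ[X]) (r d : ℤ), g.IsPrimitive → g.natDegree ≤ k → Inter pr g r d →
      ∃ (n0 W2 : ℕ) (P : ℤ[X]), n0 < W1 ∧ W1 ∣ W2 ∧ W2 ∣ W1 ^ 2 ∧
        C (W2 : ℤ) * P = g.comp (lin n0 W1) - C (g.eval (n0 : ℤ)) ∧
        (∀ l : ℕ, l.Prime → l ≤ p0 → LinMod P l) ∧
        (pr → IsCoprime (r + d * n0) (W1 : ℤ)) := by
  obtain ⟨T, hT, h⟩ := exists_deriv_not_dvd k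
  set S := (Finset.range (p0 + 1)).filter Nat.Prime with hS
  have hmem : ∀ l, l ∈ S ↔ l.Prime ∧ l ≤ p0 := by
    intro l; simp only [hS, Finset.mem_filter, Finset.mem_range]; constructor <;>
      rintro ⟨h1, h2⟩ <;> constructor <;> first | assumption | omega
  set M := ∏ l ∈ S, l with hM
  have hM1 : 1 ≤ M := Finset.one_le_prod' fun l hl => ((hmem l).1 hl).1.one_le
  have hlM : ∀ l : ℕ, l.Prime → (l ∣ M ↔ l ≤ p0) := by
    intro l hl
    rw [hM, Prime.dvd_finsetProd_iff hl.prime]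
    constructor
    · rintro ⟨a, ha, hla⟩
      obtain ⟨h1, h2⟩ := (hmem a).1 ha
      rw [(Nat.prime_dvd_prime_iff_eq hl h1).1 hla]; exact h2
    · intro h; exact ⟨l, (hmem l).2 ⟨hl, h⟩, dvd_rfl⟩
  refine ⟨M ^ T, Nat.one_le_pow _ _ hM1, fun l hl => ?_, fun pr g r d hg hk hI => ?_⟩
  · rw [← hlM l hl]
    exact ⟨hl.dvd_of_dvd_pow, fun h => h.trans (dvd_pow_self _ (by omega))⟩
  obtain ⟨n, hn1, hn2⟩ := hI M hM1
  have hroot : ∀ l ∈ S, (l : ℤ) ∣ g.eval n := fun l hl =>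
    (Int.natCast_dvd_natCast.2 (Finset.dvd_prod_of_mem _ hl)).trans hn1
  choose! j hj using fun l (hl : l ∈ S) => h g hg hk l ((hmem l).1 hl).1 n (hroot l hl)
  obtain ⟨c, hc⟩ := Nat.chineseRemainderOfFinset
    (fun l : ℕ => ((n + l * j l) % ((l : ℤ) ^ T)).toNat) (fun l => l ^ T) S
    (fun l hl => pow_ne_zero _ ((hmem l).1 hl).1.ne_zero)
    (fun a ha b hb hab => Nat.Coprime.pow _ _
      ((Nat.coprime_primes ((hmem a).1 ha).1 ((hmem b).1 hb).1).2 hab))
  have hW0 : 0 < M ^ T := by positivity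
  set n0 := c % M ^ T with hn0
  have hcong : ∀ l ∈ S, (l : ℤ) ^ T ∣ (n0 : ℤ) - (n + l * j l) := by
    intro l hl
    have hl0 : (0 : ℤ) < (l : ℤ) ^ T := by
      have := ((hmem l).1 hl).1.pos; positivity
    have h1 : n0 ≡ c [MOD l ^ T] :=
      (Nat.mod_modEq c (M ^ T)).of_dvd (pow_dvd_pow_of_dvd (Finset.dvd_prod_of_mem _ hl) T)
    have h2 := (Int.natCast_modEq_iff.2 (h1.trans (hc l hl)))
    rw [Int.toNat_of_nonneg (Int.emod_nonneg _ hl0.ne')] at h2
    push_cast at h2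
    exact (h2.trans (Int.mod_modEq _ _)).symm.dvd
  set e : ℤ := (derivative g).eval (n0 : ℤ) with he
  have hnd : ∀ l ∈ S, ¬ (l : ℤ) ^ T ∣ e := by
    intro l hl hd
    apply hj l hl
    have := (hcong l hl).trans (sub_dvd_eval_sub _ _ (derivative g))
    have h2 := dvd_sub hd this
    simpa [he] using h2
  set γ : ℕ := Int.gcd e (M ^ T : ℕ) with hγ
  have hγ1 : (γ : ℤ) ∣ e := Int.gcd_dvd_left _ _
  have hγ2 : (γ : ℤ) ∣ ((M ^ T : ℕ) : ℤ) := Int.gcd_dvd_right _ _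
  have hγ2' : γ ∣ M ^ T := Int.natCast_dvd_natCast.1 hγ2
  have hγ0 : 0 < γ := Nat.pos_of_dvd_of_pos hγ2' hW0
  obtain ⟨e', he'⟩ := hγ1
  obtain ⟨w', hw'⟩ := hγ2'
  have hcop : IsCoprime e' (w' : ℤ) := by
    rw [Int.isCoprime_iff_gcd_eq_one]
    have h1 : Int.gcd ((γ : ℤ) * e') ((γ : ℤ) * w') = γ := by
      rw [← he', ← Nat.cast_mul, ← hw']
    rw [Int.gcd_mul_left, Int.natAbs_natCast] at h1
    exact (Nat.mul_eq_left hγ0.ne').1 h1
  have hlw : ∀ l ∈ S, (l : ℤ) ∣ (w' : ℤ) := by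
    intro l hl
    have hl' := ((hmem l).1 hl).1
    by_contra hno
    apply hnd l hl
    have h1 : l ^ T ∣ γ * w' := by
      rw [← hw']; exact pow_dvd_pow_of_dvd (Finset.dvd_prod_of_mem _ hl) T
    have h2 : Nat.Coprime (l ^ T) w' :=
      Nat.Coprime.pow_left _ ((Nat.Prime.coprime_iff_not_dvd hl').2
        fun h => hno (Int.natCast_dvd_natCast.2 h))
    have h3 : ((l ^ T : ℕ) : ℤ) ∣ (γ : ℤ) :=
      Int.natCast_dvd_natCast.2 (h2.dvd_of_dvd_mul_right h1)
    rw [he']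
    exact Dvd.dvd.mul_right (by exact_mod_cast h3) _
  set G := g.comp (lin n0 ((M ^ T : ℕ) : ℤ)) - C (g.eval (n0 : ℤ)) with hG
  have hG0 : G.coeff 0 = 0 := by
    rw [hG, coeff_sub, coeff_comp_lin, taylor_coeff_zero, coeff_C_zero]; ring
  have hG1 : G.coeff 1 = ((M ^ T * γ : ℕ) : ℤ) * e' := by
    rw [hG, coeff_sub, coeff_comp_lin, taylor_coeff_one, coeff_C_succ, ← he, he']
    push_cast; ring
  have hG2 : ∀ i, 2 ≤ i → ((M ^ T * γ : ℕ) : ℤ) * w' ∣ G.coeff i := by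
    intro i hi
    obtain ⟨i, rfl⟩ := Nat.exists_eq_add_of_le hi
    have : 2 + i = (i + 1) + 1 := by ring
    rw [hG, coeff_sub, coeff_comp_lin, this, coeff_C_succ, sub_zero, ← this, pow_add]
    have h2 : ((M ^ T * γ : ℕ) : ℤ) * w' = ((M ^ T : ℕ) : ℤ) ^ 2 := by
      rw [sq]; nth_rewrite 3 [hw']; push_cast; ring
    rw [h2]
    exact Dvd.dvd.mul_left (Dvd.intro _ rfl) _
  have hdv : C ((M ^ T * γ : ℕ) : ℤ) ∣ G := by
    rw [C_dvd_iff_dvd_coeff]
    intro i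
    rcases Nat.lt_or_ge i 2 with hi | hi
    · interval_cases i
      · rw [hG0]; exact dvd_zero _
      · rw [hG1]; exact Dvd.intro _ rfl
    · exact (Dvd.intro _ rfl).trans (hG2 i hi)
  obtain ⟨P, hP⟩ := hdv
  have hW2 : ((M ^ T * γ : ℕ) : ℤ) ≠ 0 := by positivity
  have hPc : ∀ i, G.coeff i = ((M ^ T * γ : ℕ) : ℤ) * P.coeff i := fun i => by
    rw [hP, coeff_C_mul]
  refine ⟨n0, M ^ T * γ, P, Nat.mod_lt _ hW0, Dvd.intro _ rfl, ?_, hP.symm, ?_, fun hp => ?_⟩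
  · rw [sq]; exact Nat.mul_dvd_mul_left _ ⟨w', hw'⟩
  · intro l hl hlp
    have hlS := (hmem l).2 ⟨hl, hlp⟩
    refine ⟨?_, ?_, fun i hi => ?_⟩
    · have := hPc 0
      rw [hG0] at this
      exact (mul_eq_zero.1 this.symm).resolve_left hW2
    · have h1 : P.coeff 1 = e' := by
        have := hPc 1
        rw [hG1] at this
        exact (mul_left_cancel₀ hW2 this).symm
      rw [h1]
      intro hd
      have := hcop.isUnit_of_dvd' hd (hlw l hlS)
      rw [Int.isUnit_iff_natAbs_eq, Int.natAbs_natCast] at this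
      exact hl.one_lt.ne' this
    · have := hG2 i hi
      rw [hPc, mul_dvd_mul_iff_left hW2] at this
      exact (hlw l hlS).trans this
  · push_cast
    apply IsCoprime.pow_right
    rw [hM]
    push_cast
    apply IsCoprime.prod_right
    intro l hl
    have h1 : IsCoprime (r + d * n) (l : ℤ) :=
      (hn2 hp).of_isCoprime_of_dvd_right (Int.natCast_dvd_natCast.2 (Finset.dvd_prod_of_mem _ hl))
    obtain ⟨u, hu⟩ := (dvd_pow_self (l : ℤ) (by omega : T ≠ 0)).trans (hcong l hl)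
    have h2 : r + d * (n0 : ℤ) = r + d * n + l * (d * (u + j l)) := by
      have : (n0 : ℤ) = n + l * j l + l * u := by linarith
      rw [this]; ring
    rw [h2]
    exact h1.add_mul_left_left _

end Crest.Agent.N41.Poly
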